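import Vale.Agent.P207.N4.Dim
import Vale.Agent.P207.BlkG2
import Vale.Agent.P207.N3.H265.Bus
import Vale.Agent.P207.N4.H265.ExpC
import Vale.Agent.P207.N3.H465.Mt
import Vale.Agent.P207.N4.H728.Bdry

/-!
# P207, line N3, R14': the metric of the universal cover in coordinates; the gradient of the
Busemann functions

`S = sys g h`, `p : M`; the covering is `expg (mt g) p : EV n → M`. `Gm g p` is the pull-back of
the metric, `dd S p` the distance.
-/

open scoped Manifold ContDiff ENNReal Topology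
open Bundle MeasureTheory Set Filter

noncomputable section

set_option maxSynthPendingDepth 3
set_option linter.unusedSectionVars false

namespace Vale.Agent.P207.N4.H265

open Vale.Agent.P207.N3 Vale.Agent.P207.N3.H265

variable [Dim]

open Vale.Agent.P255 (RMetric Metric Npc ExpSys expg continuous_expg isExp_expg noConj_of_npc)
open Vale.Agent.P207 Vale.Agent.P207.Q Vale.Agent.P207.N4.H465 Vale.Agent.P207.N3.H465 Vale.Agent.P207.N4.H728 Vale.Agent.P207.N3.H728

variable {n : ℕ} {M : Type} [TopologicalSpace M] [ChartedSpace (EV n) M]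
  [IsManifold 𝓘(ℝ, EV n) ∞ M] {g : RMetric (EV n) M}

section Def

variable [CompactSpace M] [T2Space M]

/-- the metric of the cover `expg p : EV n → M` in the coordinates of `EV n` -/
def Gm (g : RMetric (EV n) M) (p : M) : EV n → EV n →L[ℝ] EV n →L[ℝ] ℝ :=
  pb (mt g) (expg (mt g) p)

theorem Gm_symm (p : M) (q v w : EV n) : Gm g p q v w = Gm g p q w v := pb_symm _ _ _ _ _

end Def

variable [NeZero n] [CompactSpace M] [T2Space M] [Nonempty (Fr g)] (h : Npc (mt g)) (p : M)

include h in
theorem contDiff_Gm : ContDiff ℝ ∞ (Gm g p) := contDiff_pb _ (ld_expg h p)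

include h in
theorem Gm_pos (q v : EV n) (hv : v ≠ 0) : 0 < Gm g p q v v := pb_pos _ (ld_expg h p) q v hv

include h in
theorem Gm_nonneg (q v : EV n) : 0 ≤ Gm g p q v v := pb_nonneg _ (ld_expg h p) q v

/-! ### the exponential map of the cover -/

theorem contDiff_lg (q : EV n) : ContDiff ℝ ∞ (lg (sys g h) p q) := by
  rw [contDiff_iff_contDiffAt]
  intro x
  exact contDiffAt_lift (f₁ := expg (mt g) ((sys g h).e p q)) (f₂ := expg (mt g) p)
    (ld_expg h _) (fun a ha => (ld_expg h p).smooth x a ha) (continuous_lg _ p q).continuousAt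
    (Eventually.of_forall fun y => e_lg (sys g h) p q y)

theorem contDiff_ex (q : EV n) : ContDiff ℝ ∞ (ex (sys g h) p q) := by
  rw [contDiff_iff_contDiffAt]
  intro x
  exact contDiffAt_lift (f₁ := expg (mt g) p) (f₂ := expg (mt g) ((sys g h).e p q))
    (ld_expg h p) (fun a ha => (ld_expg h _).smooth x a ha) (continuous_ex _ p q).continuousAt
    (Eventually.of_forall fun y => e_ex (sys g h) p q y)

theorem contDiff_deck (γ : Deck ((sys g h).e p)) : ContDiff ℝ ∞ fun q : EV n => γ • q := by
  rw [contDiff_iff_contDiffAt]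
  intro x
  exact contDiffAt_lift (f₁ := expg (mt g) p) (f₂ := expg (mt g) p)
    (ld_expg h p) (fun a ha => (ld_expg h p).smooth x a ha)
    (Deck.continuous_smul γ).continuousAt
    (Eventually.of_forall fun y => Deck.e_smul (e := (sys g h).e p) γ y)

/-- the derivative of the exponential map at the origin -/
def Dx (q : EV n) : EV n →L[ℝ] EV n := fderiv ℝ (ex (sys g h) p q) 0

/-- the derivative of the logarithm at the base point -/
def Dl (q : EV n) : EV n →L[ℝ] EV n := fderiv ℝ (lg (sys g h) p q) q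

theorem hasFDerivAt_ex (q : EV n) : HasFDerivAt (ex (sys g h) p q) (Dx h p q) 0 :=
  ((contDiff_ex h p q).differentiable (by simp) 0).hasFDerivAt

theorem hasFDerivAt_lg (q : EV n) : HasFDerivAt (lg (sys g h) p q) (Dl h p q) q :=
  ((contDiff_lg h p q).differentiable (by simp) q).hasFDerivAt

theorem Dl_Dx (q v : EV n) : Dl h p q (Dx h p q v) = v := by
  have h1 : HasFDerivAt (lg (sys g h) p q) (Dl h p q) (ex (sys g h) p q 0) := by
    rw [ex_zero]; exact hasFDerivAt_lg h p q
  have h2 := h1.comp (0 : EV n) (hasFDerivAt_ex h p q)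
  have h3 : (lg (sys g h) p q) ∘ (ex (sys g h) p q) = id := funext fun v => lg_ex _ p q v
  rw [h3] at h2
  exact congrArg (fun L : EV n →L[ℝ] EV n => L v) (h2.unique (hasFDerivAt_id (0 : EV n)))

theorem Dx_Dl (q v : EV n) : Dx h p q (Dl h p q v) = v := by
  have h1 : HasFDerivAt (ex (sys g h) p q) (Dx h p q) (lg (sys g h) p q q) := by
    rw [lg_self]; exact hasFDerivAt_ex h p q
  have h2 := h1.comp q (hasFDerivAt_lg h p q)
  have h3 : (ex (sys g h) p q) ∘ (lg (sys g h) p q) = id := funext fun v => ex_lg _ p q v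
  rw [h3] at h2
  exact congrArg (fun L : EV n →L[ℝ] EV n => L v) (h2.unique (hasFDerivAt_id q))

/-- the metric at `q` in terms of the inner product of the tangent space of `M` -/
theorem Gm_eq (q v w : EV n) :
    Gm g p q v w = (sys g h).ip ((sys g h).e p q) (Dl h p q v) (Dl h p q w) := by
  set m := (sys g h).e p q with hm
  have hl : LD (expg (mt g) m) := ld_expg h m
  have h1 := pb_lift (mt g) (f₁ := expg (mt g) m) (f₂ := expg (mt g) p)
    (σ := lg (sys g h) p q) (q := q) hl.cont
    (fun a ha => (hl.smooth _ a ha).differentiableAt (by simp))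
    ((contDiff_lg h p q).differentiable (by simp) q)
    (Eventually.of_forall fun y => e_lg (sys g h) p q y) v w
  rw [lg_self] at h1
  refine h1.symm.trans ?_
  have h0 : expg (mt g) m 0 = m := (isExp_expg (mt g)).zero m
  have h2 : expg (mt g) m 0 ∈ (chartAt (EV n) m).source := by rw [h0]; exact mem_chart_source _ m
  have h3 : HasFDerivAt (rd (expg (mt g) m) m) (ContinuousLinearMap.id ℝ (EV n)) 0 :=
    G2.hasFDerivAt_exp (isExp_expg (mt g)) m
  rw [pb_eq (mt g) hl.cont h2 h3.differentiableAt, h3.fderiv]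
  change (mt g).coef m (chartAt (EV n) m (expg (mt g) m 0)) _ _ = _
  rw [h0]
  rfl

theorem Gm_Dx (q v w : EV n) :
    Gm g p q (Dx h p q v) (Dx h p q w) = (sys g h).ip ((sys g h).e p q) v w := by
  rw [Gm_eq h, Dl_Dx, Dl_Dx]

theorem sqrt_Gm (q v : EV n) :
    Real.sqrt (Gm g p q v v) = (sys g h).nrm ((sys g h).e p q) (Dl h p q v) := by
  rw [Gm_eq h, ExpSys.nrm]

/-- the deck transformations are isometries -/
theorem Gm_smul (γ : Deck ((sys g h).e p)) (q v w : EV n) :
    Gm g p (γ • q) (fderiv ℝ (fun q : EV n => γ • q) q v)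
      (fderiv ℝ (fun q : EV n => γ • q) q w) = Gm g p q v w :=
  pb_lift (mt g) (f₁ := expg (mt g) p) (f₂ := expg (mt g) p) (σ := fun q : EV n => γ • q) (q := q)
    (continuous_expg (mt g) p)
    (fun a ha => ((ld_expg h p).smooth _ a ha).differentiableAt (by simp))
    ((contDiff_deck h p γ).differentiable (by simp) q)
    (Eventually.of_forall fun y => Deck.e_smul (e := (sys g h).e p) γ y) v w

/-! ### the distance -/

/-- the geodesic with initial vector `v` -/
theorem hasDerivAt_geo (q v : EV n) :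
    HasDerivAt (fun t : ℝ => ex (sys g h) p q (t • v)) (Dx h p q v) 0 := by
  have h1 : HasDerivAt (fun t : ℝ => t • v) v 0 := by
    simpa using (hasDerivAt_id (0 : ℝ)).smul_const v
  have h2 : HasFDerivAt (ex (sys g h) p q) (Dx h p q) ((0 : ℝ) • v) := by
    rw [zero_smul]; exact hasFDerivAt_ex h p q
  exact h2.comp_hasDerivAt (0 : ℝ) h1

theorem differentiableAt_dd {q x : EV n} (hx : q ≠ x) :
    DifferentiableAt ℝ (dd (sys g h) p q) x := by
  set m := (sys g h).e p q with hm
  have h0 : lg (sys g h) p q x ≠ 0 := by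
    intro h1
    apply hx
    rw [← ex_lg (sys g h) p q x, h1, ex_zero]
  have h1 : DifferentiableAt ℝ (lg (sys g h) p q) x :=
    (contDiff_lg h p q).differentiable (by simp) x
  have h2 : DifferentiableAt ℝ (fun x => (sys g h).ip m (lg (sys g h) p q x)
      (lg (sys g h) p q x)) x := by
    have h3 : DifferentiableAt ℝ (fun x => (sys g h).ip m (lg (sys g h) p q x)) x :=
      ((sys g h).ip m).differentiableAt.comp x h1
    exact h3.clm_apply h1
  exact h2.sqrt ((sys g h).ip_pos m _ h0).ne'

/-- **the distance of the cover has the infinitesimal form `Gm`** -/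
theorem dg : DG (dd (sys g h) p) (Gm g p) where
  symm := dd_comm _ p
  tri := dd_triangle _ p
  diff q x hx := differentiableAt_dd h p hx
  small q v := by
    refine ⟨fun t : ℝ => ex (sys g h) p q (t • Dl h p q v), ?_, ?_, fun t ht => ?_⟩
    · change ex (sys g h) p q ((0 : ℝ) • Dl h p q v) = q
      rw [zero_smul, ex_zero]
    · have h1 := hasDerivAt_geo h p q (Dl h p q v)
      rwa [Dx_Dl] at h1
    · change dd (sys g h) p q (ex (sys g h) p q (t • Dl h p q v)) ≤ _
      rw [dd_ex, nrm_smul, abs_of_nonneg ht, sqrt_Gm h]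
  G_symm q v w := Gm_symm p q v w
  G_nonneg q v := Gm_nonneg h p q v

/-! ### lines and Busemann functions -/

/-- the initial vector of a line -/
def vel (c : Ln (Mt (sys g h) p)) : EV n := deriv (fun t => ofMt (sys g h) p (c t)) 0

theorem vel_spec (c : Ln (Mt (sys g h) p)) :
    HasDerivAt (fun t => ofMt (sys g h) p (c t)) (vel h p c) 0 ∧
      Gm g p (ofMt (sys g h) p (c 0)) (vel h p c) (vel h p c) = 1 := by
  obtain ⟨u, hu, hcu⟩ := isometry_eq (sys g h) p c.2
  set q := ofMt (sys g h) p (c 0) with hq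
  have h1 : HasDerivAt (fun t => ofMt (sys g h) p (c t)) (Dx h p q u) 0 := by
    have h2 := hasDerivAt_geo h p q u
    have h3 : (fun t => ofMt (sys g h) p (c t)) = fun t : ℝ => ex (sys g h) p q (t • u) :=
      funext fun t => hcu t
    rw [h3]
    exact h2
  have h4 : vel h p c = Dx h p q u := h1.deriv
  rw [h4]
  refine ⟨h1, ?_⟩
  rw [Gm_Dx, ← (sys g h).nrm_sq]
  have hu' : (sys g h).nrm ((sys g h).e p q) u = 1 := hu
  rw [hu', one_pow]

theorem hasDerivAt_line (c : Ln (Mt (sys g h) p)) :
    HasDerivAt (fun t => ofMt (sys g h) p (c t)) (vel h p c) 0 := (vel_spec h p c).1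

theorem Gm_vel (c : Ln (Mt (sys g h) p)) :
    Gm g p (ofMt (sys g h) p (c 0)) (vel h p c) (vel h p c) = 1 := (vel_spec h p c).2

theorem isLine (c : Ln (Mt (sys g h) p)) :
    DG.IsLine (dd (sys g h) p) (fun t => ofMt (sys g h) p (c t)) :=
  ⟨fun s t => dd_of_isometry (sys g h) p c.2 s t⟩

/-- **First variation of the distance.** -/
theorem hasFDerivAt_dd (c : Ln (Mt (sys g h) p)) {s : ℝ} (hs : s < 0) :
    HasFDerivAt (dd (sys g h) p (ofMt (sys g h) p (c s)))
      (Gm g p (ofMt (sys g h) p (c 0)) (vel h p c)) (ofMt (sys g h) p (c 0)) :=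
  (dg h p).hasFDerivAt_dist (isLine h p c) (hasDerivAt_line h p c) (Gm_vel h p c) hs

/-- A function which is Lipschitz for the distance and grows with speed one along a line. -/
theorem hasFDerivAt_of_line {b : EV n → ℝ} (hb : ∀ x y, b x - b y ≤ dd (sys g h) p x y)
    (c : Ln (Mt (sys g h) p)) (hbc : ∀ t, b (ofMt (sys g h) p (c t)) =
      b (ofMt (sys g h) p (c 0)) + t) :
    HasFDerivAt b (Gm g p (ofMt (sys g h) p (c 0)) (vel h p c)) (ofMt (sys g h) p (c 0)) :=
  (dg h p).hasFDerivAt_bus hb (isLine h p c) hbc (hasDerivAt_line h p c) (Gm_vel h p c)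

variable {h p}

/-- the Busemann function of a boundary point -/
def bF {o : Mt (sys g h) p} (ξ : Bd o) (q : EV n) : ℝ := bus ξ.ln (toMt (sys g h) p q)

theorem bF_base {o : Mt (sys g h) p} (ξ : Bd o) : bF ξ (ofMt (sys g h) p o) = 0 := bus_base ξ

theorem bF_lip {o : Mt (sys g h) p} (ξ : Bd o) (x y : EV n) :
    |bF ξ x - bF ξ y| ≤ dd (sys g h) p x y := bus_lip ξ.ln (toMt (sys g h) p x) (toMt (sys g h) p y)

theorem bF_eq_lvl (H : Had (Mt (sys g h) p)) (o : Mt (sys g h) p) (c : Ln (Mt (sys g h) p)) :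
    bF (H.em o c) (ofMt (sys g h) p (c 0)) = H.lvl o c := rfl

/-- **The gradient of the Busemann function of `em c` is the initial vector of `c`.** -/
theorem hasFDerivAt_bF (H : Had (Mt (sys g h) p)) (o : Mt (sys g h) p) (c : Ln (Mt (sys g h) p)) :
    HasFDerivAt (bF (H.em o c)) (Gm g p (ofMt (sys g h) p (c 0)) (vel h p c))
      (ofMt (sys g h) p (c 0)) := by
  refine hasFDerivAt_of_line h p (fun x y => (le_abs_self _).trans (bF_lip _ x y)) c fun t => ?_
  exact H.bus_em o c t

/-- the line from `ξ` through `q` -/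
def lnF (H : Had (Mt (sys g h) p)) {o : Mt (sys g h) p} (ξ : Bd o) (q : EV n) :
    Ln (Mt (sys g h) p) := (H.ray (toMt (sys g h) p q) ξ.ln).flip

theorem lnF_zero (H : Had (Mt (sys g h) p)) {o : Mt (sys g h) p} (ξ : Bd o) (q : EV n) :
    lnF H ξ q 0 = toMt (sys g h) p q := by
  change H.ray (toMt (sys g h) p q) ξ.ln (-0) = _
  rw [neg_zero, H.ray_zero]

theorem em_lnF (H : Had (Mt (sys g h) p)) {o : Mt (sys g h) p} (ξ : Bd o) (q : EV n) :
    H.em o (lnF H ξ q) = ξ := by
  rw [lnF, H.em_flip, H.ep_ray, H.ep_self]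

/-- the direction field of the lines from `ξ` -/
def WF (H : Had (Mt (sys g h) p)) {o : Mt (sys g h) p} (ξ : Bd o) (q : EV n) : EV n :=
  vel h p (lnF H ξ q)

theorem Gm_WF (H : Had (Mt (sys g h) p)) {o : Mt (sys g h) p} (ξ : Bd o) (q : EV n) :
    Gm g p q (WF H ξ q) (WF H ξ q) = 1 := by
  have h1 := Gm_vel h p (lnF H ξ q)
  rw [lnF_zero] at h1
  exact h1

/-- **(R14)** the gradient of the Busemann function -/
theorem hasFDerivAt_bF' (H : Had (Mt (sys g h) p)) {o : Mt (sys g h) p} (ξ : Bd o) (q : EV n) :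
    HasFDerivAt (bF ξ) (Gm g p q (WF H ξ q)) q := by
  have h1 := hasFDerivAt_bF H o (lnF H ξ q)
  rw [em_lnF, lnF_zero] at h1
  exact h1

theorem continuous_bus_comp {Y : Type} [MetricSpace Y] [ProperSpace Y] (H : Had Y) (o : Y)
    {Z : Type} [TopologicalSpace Z] {f : Z → Y} (hf : Continuous f) :
    Continuous fun r : Bd o × Z => bus r.1.ln (f r.2) := by
  have h1 : Continuous fun r : Bd o × Z => r.1.ln := Bd.continuous_ln.comp continuous_fst
  exact Continuous.comp (g := fun q : Ln Y × Y => bus q.1 q.2) H.continuous_bus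
    (h1.prodMk (hf.comp continuous_snd))

theorem continuous_bF (H : Had (Mt (sys g h) p)) (o : Mt (sys g h) p) :
    Continuous fun r : Bd o × EV n => bF r.1 r.2 :=
  continuous_bus_comp H o (f := toMt (sys g h) p) (continuous_toMt (sys g h) p)

/-- **(R14)** the Busemann functions form a `JC` family if the direction fields do -/
theorem jc_bF (H : Had (Mt (sys g h) p)) (o : Mt (sys g h) p)
    (hW : JC (fun (ξ : Bd o) (q : EV n) => WF H ξ q) univ) :
    JC (fun (ξ : Bd o) (q : EV n) => bF ξ q) univ :=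
  jc_of_grad (contDiff_Gm h p) (continuous_bF H o) (fun ξ q => hasFDerivAt_bF' H ξ q) hW

end Vale.Agent.P207.N4.H265
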